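import Vale.Agent.P021.Defs
import Vale.Agent.P021Z.Final
import Vale.Agent.P021Z.Lower

namespace Vale.Agent.Results.P021.AExponentTwo

open Vale.Agent.P021

/-- The irrationality exponent of `π` is `2`. -/
theorem result : irrationalityExponent Real.pi = 2 :=
  Vale.Agent.P021Z.mu_pi_eq_two_of_finite fun _ h => Vale.Agent.P021Z.finite_approx h

end Vale.Agent.Results.P021.AExponentTwo
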